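import Vale.Agent.Lib.P254U.LP.Defs

/-!
P254U/LP/Beta: the moments of the ball.
`(p+1) JJ n p / JJ n 0 = Γ((p+3)/2) Γ(n/2+1) / (Γ(3/2) Γ((n+p)/2+1)) = B((p+3)/2, (n-1)/2) / B(3/2, (n-1)/2)` is the
`p`-th moment of `Y` with `Y^2 ~ Beta(3/2, (n-1)/2)` (`n ≥ 2`), so by Hölder / Jensen
`((p+1) JJ n p / JJ n 0)^(1/p)` is nondecreasing in `p`; and for `p = 10` the value of
`11 JJ n 10 / JJ n 0` is `10395 / P5 n` (`Real.Gamma_add_one` five times above and below; compare
`Om_JJ4` in ZP/Om.lean).  The Beta function is log-convex in the first variable: weighted AM-GM for the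
densities `ProbabilityTheory.betaPDF`.
-/

open MeasureTheory Set

namespace Vale.Agent.P254U

private lemma Beta_logconvex {x y b l : ℝ} (hx : 0 < x) (hy : 0 < y) (hb : 0 < b) (h0 : 0 ≤ l)
    (h1 : l ≤ 1) : ProbabilityTheory.beta ((1 - l) * x + l * y) b ≤
      ProbabilityTheory.beta x b ^ (1 - l) * ProbabilityTheory.beta y b ^ l := by
  have hz : 0 < (1 - l) * x + l * y := by
    rcases eq_or_lt_of_le h0 with h | h
    · rw [← h]
      linarith
    · have h2 : 0 ≤ (1 - l) * x := mul_nonneg (by linarith) hx.le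
      have h3 : 0 < l * y := mul_pos h hy
      linarith
  set z := (1 - l) * x + l * y with hzdef
  have hA := ProbabilityTheory.beta_pos hx hb
  have hC := ProbabilityTheory.beta_pos hy hb
  have hZ := ProbabilityTheory.beta_pos hz hb
  set A := ProbabilityTheory.beta x b with hAdef
  set C := ProbabilityTheory.beta y b with hCdef
  set Z := ProbabilityTheory.beta z b with hZdef
  have hAC : 0 < A ^ (1 - l) * C ^ l :=
    mul_pos (Real.rpow_pos_of_pos hA _) (Real.rpow_pos_of_pos hC _)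
  have hK : 0 ≤ Z / (A ^ (1 - l) * C ^ l) := (div_pos hZ hAC).le
  have hpt : ∀ t : ℝ, ENNReal.ofReal (Z / (A ^ (1 - l) * C ^ l)) *
      ProbabilityTheory.betaPDF z b t ≤
      ENNReal.ofReal (1 - l) * ProbabilityTheory.betaPDF x b t +
        ENNReal.ofReal l * ProbabilityTheory.betaPDF y b t := by
    intro t
    by_cases ht : 0 < t ∧ t < 1
    · rw [ProbabilityTheory.betaPDF_of_pos_lt_one ht.1 ht.2,
        ProbabilityTheory.betaPDF_of_pos_lt_one ht.1 ht.2,
        ProbabilityTheory.betaPDF_of_pos_lt_one ht.1 ht.2]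
      have ht' : 0 < 1 - t := by linarith [ht.2]
      have hf : 0 ≤ 1 / A * t ^ (x - 1) * (1 - t) ^ (b - 1) :=
        mul_nonneg (mul_nonneg (by positivity) (Real.rpow_nonneg ht.1.le _))
          (Real.rpow_nonneg ht'.le _)
      have hg : 0 ≤ 1 / C * t ^ (y - 1) * (1 - t) ^ (b - 1) :=
        mul_nonneg (mul_nonneg (by positivity) (Real.rpow_nonneg ht.1.le _))
          (Real.rpow_nonneg ht'.le _)
      rw [← ENNReal.ofReal_mul hK, ← ENNReal.ofReal_mul (by linarith), ← ENNReal.ofReal_mul h0,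
        ← ENNReal.ofReal_add (mul_nonneg (by linarith) hf) (mul_nonneg h0 hg)]
      refine ENNReal.ofReal_le_ofReal ?_
      have h5 := Real.geom_mean_le_arith_mean2_weighted (w₁ := 1 - l) (w₂ := l)
        (p₁ := 1 / A * t ^ (x - 1) * (1 - t) ^ (b - 1))
        (p₂ := 1 / C * t ^ (y - 1) * (1 - t) ^ (b - 1)) (by linarith) h0 hf hg (by ring)
      refine le_trans (le_of_eq ?_) h5
      have h6 : ∀ D s r : ℝ, 0 < D → (1 / D * t ^ (s - 1) * (1 - t) ^ (b - 1)) ^ r =
          (D ^ r)⁻¹ * t ^ ((s - 1) * r) * (1 - t) ^ ((b - 1) * r) := by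
        intro D s r hD
        rw [Real.mul_rpow (mul_nonneg (by positivity) (Real.rpow_nonneg ht.1.le _))
          (Real.rpow_nonneg ht'.le _), Real.mul_rpow (by positivity) (Real.rpow_nonneg ht.1.le _),
          one_div, Real.inv_rpow hD.le, ← Real.rpow_mul ht.1.le, ← Real.rpow_mul ht'.le]
      rw [h6 A x (1 - l) hA, h6 C y l hC]
      have h7 : t ^ (z - 1) = t ^ ((x - 1) * (1 - l)) * t ^ ((y - 1) * l) := by
        rw [← Real.rpow_add ht.1]
        congr 1
        rw [hzdef]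
        ring
      have h8 : (1 - t) ^ (b - 1) = (1 - t) ^ ((b - 1) * (1 - l)) * (1 - t) ^ ((b - 1) * l) := by
        rw [← Real.rpow_add ht']
        congr 1
        ring
      have h9 : Z / (A ^ (1 - l) * C ^ l) * (1 / Z * t ^ (z - 1) * (1 - t) ^ (b - 1)) =
          (A ^ (1 - l))⁻¹ * (C ^ l)⁻¹ * (t ^ (z - 1) * (1 - t) ^ (b - 1)) := by
        have hA' := (Real.rpow_pos_of_pos hA (1 - l)).ne'
        have hC' := (Real.rpow_pos_of_pos hC l).ne'
        field_simp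
      rw [h9, h7, h8]
      ring
    · have h2 : ∀ s : ℝ, ProbabilityTheory.betaPDF s b t = 0 := by
        intro s
        rw [ProbabilityTheory.betaPDF_eq, if_neg ht, ENNReal.ofReal_zero]
      rw [h2, h2, h2]
      simp
  have hm : ∀ s : ℝ, Measurable (ProbabilityTheory.betaPDF s b) := fun s =>
    (ProbabilityTheory.measurable_betaPDFReal s b).ennreal_ofReal
  have hint := lintegral_mono (μ := volume) hpt
  rw [lintegral_const_mul _ (hm z), lintegral_add_left ((hm x).const_mul _),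
    lintegral_const_mul _ (hm x), lintegral_const_mul _ (hm y),
    ProbabilityTheory.lintegral_betaPDF_eq_one hz hb,
    ProbabilityTheory.lintegral_betaPDF_eq_one hx hb,
    ProbabilityTheory.lintegral_betaPDF_eq_one hy hb, mul_one, mul_one, mul_one,
    ← ENNReal.ofReal_add (by linarith) h0, sub_add_cancel] at hint
  have h2 := (ENNReal.ofReal_le_ofReal_iff (by norm_num)).1 hint
  rwa [div_le_one hAC] at h2

private lemma Beta_JJ {n : ℕ} (hn : 2 ≤ n) {p : ℝ} (hp : 0 ≤ p) :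
    (p + 1) * JJ n p = 2 * Real.pi ^ (((n : ℝ) - 1) / 2) / Real.Gamma (((n : ℝ) - 1) / 2) *
      ProbabilityTheory.beta ((p + 3) / 2) (((n : ℝ) - 1) / 2) := by
  have hn' : (2 : ℝ) ≤ n := by exact_mod_cast hn
  unfold JJ ProbabilityTheory.beta
  have h1 : Real.Gamma ((p + 3) / 2) = (p + 1) / 2 * Real.Gamma ((p + 1) / 2) := by
    rw [← Real.Gamma_add_one (by positivity)]
    congr 1
    ring
  have h2 : (p + 3) / 2 + ((n : ℝ) - 1) / 2 = ((n : ℝ) + p) / 2 + 1 := by ring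
  rw [h2, h1]
  have h3 : Real.Gamma (((n : ℝ) - 1) / 2) ≠ 0 := (Real.Gamma_pos_of_pos (by linarith)).ne'
  have h4 : Real.Gamma (((n : ℝ) + p) / 2 + 1) ≠ 0 := (Real.Gamma_pos_of_pos (by linarith)).ne'
  field_simp

private lemma Beta_ten {n : ℕ} (hn : 2 ≤ n) :
    ProbabilityTheory.beta ((10 + 3) / 2) (((n : ℝ) - 1) / 2) =
      10395 / P5 n * ProbabilityTheory.beta (3 / 2) (((n : ℝ) - 1) / 2) := by
  have hn' : (2 : ℝ) ≤ n := by exact_mod_cast hn
  unfold ProbabilityTheory.beta P5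
  have h1 : Real.Gamma ((10 + 3) / 2) = 10395 / 32 * Real.Gamma (3 / 2) := by
    have h2 : ((10 : ℝ) + 3) / 2 = 3 / 2 + 1 + 1 + 1 + 1 + 1 := by norm_num
    rw [h2, Real.Gamma_add_one (by norm_num), Real.Gamma_add_one (by norm_num),
      Real.Gamma_add_one (by norm_num), Real.Gamma_add_one (by norm_num),
      Real.Gamma_add_one (by norm_num)]
    ring
  have h3 : ((10 : ℝ) + 3) / 2 + ((n : ℝ) - 1) / 2 = ((n : ℝ) / 2 + 1) + 1 + 1 + 1 + 1 + 1 := by
    ring
  have h4 : (3 : ℝ) / 2 + ((n : ℝ) - 1) / 2 = (n : ℝ) / 2 + 1 := by ring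
  have h5 : Real.Gamma (((n : ℝ) / 2 + 1) + 1 + 1 + 1 + 1 + 1) =
      (((n : ℝ) / 2 + 5) * (((n : ℝ) / 2 + 4) * (((n : ℝ) / 2 + 3) * (((n : ℝ) / 2 + 2) *
        (((n : ℝ) / 2 + 1) * Real.Gamma ((n : ℝ) / 2 + 1)))))) := by
    rw [Real.Gamma_add_one (by positivity), Real.Gamma_add_one (by positivity),
      Real.Gamma_add_one (by positivity), Real.Gamma_add_one (by positivity),
      Real.Gamma_add_one (by positivity)]
    ring
  rw [h1, h3, h4, h5]
  have h6 : Real.Gamma ((n : ℝ) / 2 + 1) ≠ 0 := (Real.Gamma_pos_of_pos (by positivity)).ne'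
  have h7 : (n : ℝ) + 2 ≠ 0 := by positivity
  have h8 : (n : ℝ) + 4 ≠ 0 := by positivity
  have h9 : (n : ℝ) + 6 ≠ 0 := by positivity
  have h10 : (n : ℝ) + 8 ≠ 0 := by positivity
  have h11 : (n : ℝ) + 10 ≠ 0 := by positivity
  have e1 : (n : ℝ) / 2 + 5 = ((n : ℝ) + 10) / 2 := by ring
  have e2 : (n : ℝ) / 2 + 4 = ((n : ℝ) + 8) / 2 := by ring
  have e3 : (n : ℝ) / 2 + 3 = ((n : ℝ) + 6) / 2 := by ring
  have e4 : (n : ℝ) / 2 + 2 = ((n : ℝ) + 4) / 2 := by ring
  have e5 : (n : ℝ) / 2 + 1 = ((n : ℝ) + 2) / 2 := by ring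
  rw [e1, e2, e3, e4]
  generalize Real.Gamma ((n : ℝ) / 2 + 1) = G at h6 ⊢
  rw [e5]
  field_simp
  norm_num

theorem jj_beta {n : ℕ} (hn : 2 ≤ n) {p : ℝ} (h2 : 2 ≤ p) (h10 : p ≤ 10) :
    (p + 1) * JJ n p ≤ (10395 / P5 n) ^ (p / 10) * JJ n 0 := by
  have hn' : (2 : ℝ) ≤ n := by exact_mod_cast hn
  have hb : 0 < ((n : ℝ) - 1) / 2 := by linarith
  have hP : 0 < P5 n := by
    unfold P5
    positivity
  have hc : 0 < 2 * Real.pi ^ (((n : ℝ) - 1) / 2) / Real.Gamma (((n : ℝ) - 1) / 2) :=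
    div_pos (mul_pos two_pos (Real.rpow_pos_of_pos Real.pi_pos _)) (Real.Gamma_pos_of_pos hb)
  have h0 := Beta_JJ hn (p := 0) le_rfl
  have hp := Beta_JJ hn (p := p) (by linarith)
  rw [zero_add, one_mul, zero_add] at h0
  rw [hp, h0]
  have hconv := Beta_logconvex (x := 3 / 2) (y := (10 + 3) / 2) (b := ((n : ℝ) - 1) / 2)
    (l := p / 10) (by norm_num) (by norm_num) hb (by linarith) (by linarith)
  have e1 : (1 - p / 10) * (3 / 2) + p / 10 * ((10 + 3) / 2) = (p + 3) / 2 := by ring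
  rw [e1, Beta_ten hn] at hconv
  have hB := ProbabilityTheory.beta_pos (α := 3 / 2) (by norm_num) hb
  set B := ProbabilityTheory.beta (3 / 2) (((n : ℝ) - 1) / 2) with hBdef
  have e2 : B ^ (1 - p / 10) * (10395 / P5 n * B) ^ (p / 10) = (10395 / P5 n) ^ (p / 10) * B := by
    rw [Real.mul_rpow (by positivity) hB.le]
    have e3 : B ^ (1 - p / 10) * B ^ (p / 10) = B := by
      rw [← Real.rpow_add hB, sub_add_cancel, Real.rpow_one]
    calc B ^ (1 - p / 10) * ((10395 / P5 n) ^ (p / 10) * B ^ (p / 10)) =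
        (10395 / P5 n) ^ (p / 10) * (B ^ (1 - p / 10) * B ^ (p / 10)) := by ring
      _ = _ := by rw [e3]
  rw [e2] at hconv
  calc 2 * Real.pi ^ (((n : ℝ) - 1) / 2) / Real.Gamma (((n : ℝ) - 1) / 2) *
        ProbabilityTheory.beta ((p + 3) / 2) (((n : ℝ) - 1) / 2) ≤
      2 * Real.pi ^ (((n : ℝ) - 1) / 2) / Real.Gamma (((n : ℝ) - 1) / 2) *
        ((10395 / P5 n) ^ (p / 10) * B) := mul_le_mul_of_nonneg_left hconv hc.le
    _ = _ := by ring

end Vale.Agent.P254U
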