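import Vale.Agent.Lib.P254U.SY.Defs

/-!
P254U/LP: unit balls of `n`-dimensional subspaces of `L_p`, `2 ≤ p ≤ 10`, `n ≥ 3`, and symmetric bodies
within distance `51/50` of them.

OVERVIEW.  As in ZP (see ZP/Defs.lean), with a better constant: for a symmetric convex body `K` the
densities of linear functionals are nonincreasing on `[0, ∞)` (unimodality), hence (Mom)
`E |⟨w,x⟩|^p ≥ (3 wᵀΣw)^(p/2) / (p+1)` for `p ≥ 2`.  On the ball (Beta):
`(p+1) JJ n p ≤ JJ n 0 * (10395 / ((n+2)(n+4)(n+6)(n+8)(n+10)))^(p/10)` for `p ≤ 10`.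
The comparison inequality `zp_comp` gives `243 ≤ d^10 R^10 * 10395 / ∏ (n+2j)`, and (Num) finishes.
-/

open MeasureTheory Set

namespace Vale.Agent.P254U

/-- `(n+2)(n+4)(n+6)(n+8)(n+10)` -/
noncomputable def P5 (n : ℕ) : ℝ :=
  ((n : ℝ) + 2) * ((n : ℝ) + 4) * ((n : ℝ) + 6) * ((n : ℝ) + 8) * ((n : ℝ) + 10)

end Vale.Agent.P254U
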