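import Vale.Agent.Lib.P254U.LP.Defs

/-!
P254U/LP/Num: the numerical inequality.
With `D(n) = log RHS - log LHS`, `D(3) = 0.697`, `D(n+1) - D(n) ≥ 0.296` for all `n ≥ 3`.
The increment is bounded below by a rational function of `x = n + 2 ≥ 5`, by
`log (1 + u) ≥ 2 u / (u + 2)` and `log t ≤ (t - t⁻¹) / 2`.
-/

namespace Vale.Agent.P254U

lemma Num_up {m : ℝ} (hm : 0 < m) :
    Real.log (m + 1) - Real.log m ≤ (1 / m + 1 / (m + 1)) / 2 := by
  have h1 : 0 < (m + 1) / m := by positivity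
  have h2 : Real.log (m + 1) - Real.log m = Real.log ((m + 1) / m) := by
    rw [Real.log_div (by positivity) hm.ne']
  have h3 : 0 ≤ Real.log ((m + 1) / m) := by
    refine Real.log_nonneg ?_
    rw [le_div_iff₀ hm]
    linarith
  have h4 := Real.self_le_sinh_iff.2 h3
  rw [Real.sinh_log h1] at h4
  rw [h2]
  refine h4.trans (le_of_eq ?_)
  field_simp
  ring

lemma Num_lo {x k : ℝ} (hx : 0 < x) (hk : 0 ≤ k) :
    2 * k / (2 * x + k) ≤ Real.log (x + k) - Real.log x := by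
  have h1 : Real.log (x + k) - Real.log x = Real.log (1 + k / x) := by
    rw [← Real.log_div (by positivity) hx.ne']
    congr 1
    field_simp
  have h2 := Real.le_log_one_add_of_nonneg (x := k / x) (by positivity)
  rw [h1]
  refine le_trans (le_of_eq ?_) h2
  field_simp
  ring

lemma Num_rat {t : ℝ} (ht : 0 ≤ t) :
    0 < 2 * (2 * 1 / (2 * (5 + t) + 1) + 2 * 3 / (2 * (5 + t) + 3) + 2 * 5 / (2 * (5 + t) + 5) +
        2 * 7 / (2 * (5 + t) + 7) + 2 * 9 / (2 * (5 + t) + 9)) -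
      15 * ((1 / (4 + t) + 1 / (5 + t)) / 2) +
      2 * (3 + t) * (2 * 1 / (2 * (5 + t) + 1) + 2 * 1 / (2 * (5 + t) + 5) +
        2 * 1 / (2 * (5 + t) + 9) + 2 * 1 / (2 * (5 + t) + 13) + 2 * 1 / (2 * (5 + t) + 17)) -
      10 * (4 + t) * ((1 / (4 + t) + 1 / (5 + t)) / 2 + (1 / (5 + t) + 1 / (6 + t)) / 2) +
      31 / 3 := by
  have h : 2 * (2 * 1 / (2 * (5 + t) + 1) + 2 * 3 / (2 * (5 + t) + 3) +
        2 * 5 / (2 * (5 + t) + 5) +
        2 * 7 / (2 * (5 + t) + 7) + 2 * 9 / (2 * (5 + t) + 9)) -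
      15 * ((1 / (4 + t) + 1 / (5 + t)) / 2) +
      2 * (3 + t) * (2 * 1 / (2 * (5 + t) + 1) + 2 * 1 / (2 * (5 + t) + 5) +
        2 * 1 / (2 * (5 + t) + 9) + 2 * 1 / (2 * (5 + t) + 13) + 2 * 1 / (2 * (5 + t) + 17)) -
      10 * (4 + t) * ((1 / (4 + t) + 1 / (5 + t)) / 2 + (1 / (5 + t) + 1 / (6 + t)) / 2) +
      31 / 3 =
      (14224800285 + 44386395159 / 2 * t + 13679969375 * t ^ 2 + 13547685403 / 3 * t ^ 3 +
        2691550930 / 3 * t ^ 4 + 114669412 * t ^ 5 + 10211416 * t ^ 6 + 726960 * t ^ 7 +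
        45088 * t ^ 8 + 6080 / 3 * t ^ 9 + 128 / 3 * t ^ 10) /
      ((2 * (5 + t) + 1) * (2 * (5 + t) + 3) * (2 * (5 + t) + 5) * (2 * (5 + t) + 7) *
        (2 * (5 + t) + 9) * (2 * (5 + t) + 13) * (2 * (5 + t) + 17) * (4 + t) * (5 + t) *
        (6 + t)) := by
    have h1 : 2 * (5 + t) + 1 ≠ 0 := by positivity
    have h3 : 2 * (5 + t) + 3 ≠ 0 := by positivity
    have h5 : 2 * (5 + t) + 5 ≠ 0 := by positivity
    have h7 : 2 * (5 + t) + 7 ≠ 0 := by positivity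
    have h9 : 2 * (5 + t) + 9 ≠ 0 := by positivity
    have h13 : 2 * (5 + t) + 13 ≠ 0 := by positivity
    have h17 : 2 * (5 + t) + 17 ≠ 0 := by positivity
    have g4 : 4 + t ≠ 0 := by positivity
    have g5 : 5 + t ≠ 0 := by positivity
    have g6 : 6 + t ≠ 0 := by positivity
    field_simp
    ring
  rw [h]
  positivity

lemma Num_c0 : 31 / 3 ≤ 10 * Real.log (2 * Real.pi) + 2 * Real.log 243 - 2 * Real.log 10395 -
    20 * Real.log (51 / 50) := by
  have hp := Real.pi_pos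
  have h1 : Real.exp 1 ^ 31 * (10395 ^ 6 * (51 / 50) ^ 60) ≤ (2 * Real.pi) ^ 30 * 243 ^ 6 := by
    have h2 : Real.exp 1 ^ 31 ≤ 2.7182818286 ^ 31 :=
      pow_le_pow_left₀ (Real.exp_pos _).le Real.exp_one_lt_d9.le _
    have h3 : (2 * 3.14 : ℝ) ^ 30 ≤ (2 * Real.pi) ^ 30 :=
      pow_le_pow_left₀ (by norm_num) (by linarith [Real.pi_gt_d2]) _
    calc Real.exp 1 ^ 31 * (10395 ^ 6 * (51 / 50) ^ 60)
        ≤ 2.7182818286 ^ 31 * (10395 ^ 6 * (51 / 50) ^ 60) := by gcongr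
      _ ≤ (2 * 3.14 : ℝ) ^ 30 * 243 ^ 6 := by norm_num
      _ ≤ (2 * Real.pi) ^ 30 * 243 ^ 6 := by gcongr
  have h4 := Real.log_le_log (by positivity) h1
  rw [Real.log_mul (by positivity) (by positivity), Real.log_mul (by positivity) (by positivity),
    Real.log_mul (by positivity) (by positivity), Real.log_pow, Real.log_pow, Real.log_pow,
    Real.log_pow, Real.log_pow, Real.log_exp] at h4
  push_cast at h4
  linarith

/-- the increment, `x = n + 2` -/
lemma Num_step {x : ℝ} (hx : 5 ≤ x) :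
    0 < 2 * (Real.log (x + 1) + Real.log (x + 3) + Real.log (x + 5) + Real.log (x + 7) +
        Real.log (x + 9)) + 15 * Real.log (x - 1) - 25 * Real.log x +
      2 * (x - 2) * ((Real.log (x + 1) - Real.log x) + (Real.log (x + 3) - Real.log (x + 2)) +
        (Real.log (x + 5) - Real.log (x + 4)) + (Real.log (x + 7) - Real.log (x + 6)) +
        (Real.log (x + 9) - Real.log (x + 8))) -
      10 * (x - 1) * (Real.log (x + 1) - Real.log (x - 1)) +
      (10 * Real.log (2 * Real.pi) + 2 * Real.log 243 - 2 * Real.log 10395 -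
        20 * Real.log (51 / 50)) := by
  have hc := Num_c0
  have hx0 : 0 < x := by linarith
  have a1 := Num_lo (k := 1) hx0 (by norm_num)
  have a3 := Num_lo (k := 3) hx0 (by norm_num)
  have a5 := Num_lo (k := 5) hx0 (by norm_num)
  have a7 := Num_lo (k := 7) hx0 (by norm_num)
  have a9 := Num_lo (k := 9) hx0 (by norm_num)
  have b3 := Num_lo (x := x + 2) (k := 1) (by linarith) (by norm_num)
  have b5 := Num_lo (x := x + 4) (k := 1) (by linarith) (by norm_num)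
  have b7 := Num_lo (x := x + 6) (k := 1) (by linarith) (by norm_num)
  have b9 := Num_lo (x := x + 8) (k := 1) (by linarith) (by norm_num)
  rw [show x + 2 + 1 = x + 3 by ring, show 2 * (x + 2) + 1 = 2 * x + 5 by ring] at b3
  rw [show x + 4 + 1 = x + 5 by ring, show 2 * (x + 4) + 1 = 2 * x + 9 by ring] at b5
  rw [show x + 6 + 1 = x + 7 by ring, show 2 * (x + 6) + 1 = 2 * x + 13 by ring] at b7
  rw [show x + 8 + 1 = x + 9 by ring, show 2 * (x + 8) + 1 = 2 * x + 17 by ring] at b9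
  have c1 := Num_up (m := x - 1) (by linarith)
  have c2 := Num_up (m := x) hx0
  rw [show x - 1 + 1 = x by ring] at c1
  have hB := mul_le_mul_of_nonneg_left (add_le_add (add_le_add (add_le_add (add_le_add a1 b3) b5)
    b7) b9) (show 0 ≤ 2 * (x - 2) by linarith)
  have hD := mul_le_mul_of_nonneg_left (add_le_add c1 c2) (show 0 ≤ 10 * (x - 1) by linarith)
  have hr := Num_rat (t := x - 5) (by linarith)
  rw [show 5 + (x - 5) = x by ring, show 4 + (x - 5) = x - 1 by ring,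
    show 6 + (x - 5) = x + 1 by ring, show 3 + (x - 5) = x - 2 by ring] at hr
  rw [show Real.log x - Real.log (x - 1) + (Real.log (x + 1) - Real.log x) =
    Real.log (x + 1) - Real.log (x - 1) by ring] at hD
  linarith

/-- `log RHS - log LHS` -/
noncomputable def NumD (n : ℕ) : ℝ :=
  5 * Real.log 2 + 10 * Real.log (n.factorial : ℝ) + 10 * n * Real.log (2 * Real.pi) +
    2 * n * Real.log 243 +
    2 * n * (Real.log ((n : ℝ) + 2) + Real.log ((n : ℝ) + 4) + Real.log ((n : ℝ) + 6) +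
      Real.log ((n : ℝ) + 8) + Real.log ((n : ℝ) + 10)) -
    (10 * (((n : ℝ) + 1) * Real.log ((n : ℝ) + 1) + n * Real.log ((n : ℝ) + 2)) +
      5 * (Real.log Real.pi + Real.log ((n : ℝ) + 1)) + 2 * n * Real.log 10395 +
      20 * n * Real.log (51 / 50))

lemma Num_log_lhs (n : ℕ) :
    Real.log ((((n : ℝ) + 1) ^ (n + 1) * ((n : ℝ) + 2) ^ n) ^ 10 *
      (Real.pi * ((n : ℝ) + 1)) ^ 5 * 10395 ^ (2 * n) * (51 / 50 : ℝ) ^ (20 * n)) =
    10 * (((n : ℝ) + 1) * Real.log ((n : ℝ) + 1) + n * Real.log ((n : ℝ) + 2)) +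
      5 * (Real.log Real.pi + Real.log ((n : ℝ) + 1)) + 2 * n * Real.log 10395 +
      20 * n * Real.log (51 / 50) := by
  have hp := Real.pi_pos
  rw [Real.log_mul (by positivity) (by positivity), Real.log_mul (by positivity) (by positivity),
    Real.log_mul (by positivity) (by positivity), Real.log_pow, Real.log_pow, Real.log_pow,
    Real.log_pow, Real.log_mul (by positivity) (by positivity), Real.log_pow, Real.log_pow,
    Real.log_mul (by positivity) (by positivity)]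
  push_cast
  ring

lemma Num_log_rhs (n : ℕ) :
    Real.log ((2 * (n.factorial : ℝ) ^ 2 * (2 * Real.pi) ^ (2 * n)) ^ 5 * 243 ^ (2 * n) *
      P5 n ^ (2 * n)) =
    5 * Real.log 2 + 10 * Real.log (n.factorial : ℝ) + 10 * n * Real.log (2 * Real.pi) +
    2 * n * Real.log 243 +
    2 * n * (Real.log ((n : ℝ) + 2) + Real.log ((n : ℝ) + 4) + Real.log ((n : ℝ) + 6) +
      Real.log ((n : ℝ) + 8) + Real.log ((n : ℝ) + 10)) := by
  have hp := Real.pi_pos
  have hf : (0 : ℝ) < n.factorial := by exact_mod_cast n.factorial_pos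
  have h5 : 0 < P5 n := by
    unfold P5
    positivity
  have hP : Real.log (P5 n) = Real.log ((n : ℝ) + 2) + Real.log ((n : ℝ) + 4) +
      Real.log ((n : ℝ) + 6) + Real.log ((n : ℝ) + 8) + Real.log ((n : ℝ) + 10) := by
    unfold P5
    rw [Real.log_mul (by positivity) (by positivity), Real.log_mul (by positivity) (by positivity),
      Real.log_mul (by positivity) (by positivity), Real.log_mul (by positivity) (by positivity)]
  rw [Real.log_mul (by positivity) (by positivity), Real.log_mul (by positivity) (by positivity),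
    Real.log_pow, Real.log_pow, Real.log_pow, Real.log_mul (by positivity) (by positivity),
    Real.log_mul (by positivity) (by positivity), Real.log_pow, Real.log_pow, hP]
  push_cast
  ring

lemma NumD_step {n : ℕ} (hn : 3 ≤ n) : NumD n < NumD (n + 1) := by
  have hn' : (3 : ℝ) ≤ n := by exact_mod_cast hn
  have h := Num_step (x := (n : ℝ) + 2) (by linarith)
  rw [show (n : ℝ) + 2 + 1 = n + 3 by ring, show (n : ℝ) + 2 + 3 = n + 5 by ring,
    show (n : ℝ) + 2 + 5 = n + 7 by ring, show (n : ℝ) + 2 + 7 = n + 9 by ring,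
    show (n : ℝ) + 2 + 9 = n + 11 by ring, show (n : ℝ) + 2 - 1 = n + 1 by ring,
    show (n : ℝ) + 2 + 2 = n + 4 by ring, show (n : ℝ) + 2 + 4 = n + 6 by ring,
    show (n : ℝ) + 2 + 6 = n + 8 by ring, show (n : ℝ) + 2 + 8 = n + 10 by ring,
    show (n : ℝ) + 2 - 2 = n by ring] at h
  have hf : Real.log (((n + 1).factorial : ℕ) : ℝ) =
      Real.log ((n : ℝ) + 1) + Real.log (n.factorial : ℝ) := by
    rw [Nat.factorial_succ]
    push_cast
    rw [Real.log_mul (by positivity) (by positivity)]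
  unfold NumD
  rw [hf]
  push_cast
  rw [show (n : ℝ) + 1 + 1 = n + 2 by ring, show (n : ℝ) + 1 + 2 = n + 3 by ring,
    show (n : ℝ) + 1 + 4 = n + 5 by ring, show (n : ℝ) + 1 + 6 = n + 7 by ring,
    show (n : ℝ) + 1 + 8 = n + 9 by ring, show (n : ℝ) + 1 + 10 = n + 11 by ring]
  nlinarith [h]

lemma Num_base : (((((3 : ℕ) : ℝ) + 1) ^ (3 + 1) * (((3 : ℕ) : ℝ) + 2) ^ 3) ^ 10 *
      (Real.pi * (((3 : ℕ) : ℝ) + 1)) ^ 5 * 10395 ^ (2 * 3) * (51 / 50 : ℝ) ^ (20 * 3)) <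
      (2 * (Nat.factorial 3 : ℝ) ^ 2 * (2 * Real.pi) ^ (2 * 3)) ^ 5 * 243 ^ (2 * 3) *
        P5 3 ^ (2 * 3) := by
  have hp := Real.pi_pos
  have h1 : (3.14 : ℝ) ^ 25 ≤ Real.pi ^ 25 :=
    pow_le_pow_left₀ (by norm_num) Real.pi_gt_d2.le _
  have hf : (Nat.factorial 3 : ℝ) = 6 := by norm_num [Nat.factorial]
  have h5 : P5 3 = 45045 := by
    unfold P5
    norm_num
  rw [hf, h5]
  have e1 : (((((3 : ℕ) : ℝ) + 1) ^ (3 + 1) * (((3 : ℕ) : ℝ) + 2) ^ 3) ^ 10 *
      (Real.pi * (((3 : ℕ) : ℝ) + 1)) ^ 5 * 10395 ^ (2 * 3) * (51 / 50 : ℝ) ^ (20 * 3)) =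
      (32000 ^ 10 * 4 ^ 5 * 10395 ^ 6 * (51 / 50 : ℝ) ^ 60) * Real.pi ^ 5 := by
    push_cast
    ring
  have e2 : (2 * (6 : ℝ) ^ 2 * (2 * Real.pi) ^ (2 * 3)) ^ 5 * 243 ^ (2 * 3) *
      45045 ^ (2 * 3) = ((4608 : ℝ) ^ 5 * 243 ^ 6 * 45045 ^ 6 * Real.pi ^ 25) * Real.pi ^ 5 := by
    ring
  rw [e1, e2]
  refine mul_lt_mul_of_pos_right ?_ (by positivity)
  calc (32000 ^ 10 * 4 ^ 5 * 10395 ^ 6 * (51 / 50 : ℝ) ^ 60)
      < (4608 : ℝ) ^ 5 * 243 ^ 6 * 45045 ^ 6 * 3.14 ^ 25 := by norm_num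
    _ ≤ (4608 : ℝ) ^ 5 * 243 ^ 6 * 45045 ^ 6 * Real.pi ^ 25 := by gcongr

lemma NumD_pos {n : ℕ} (hn : 3 ≤ n) : 0 < NumD n := by
  induction n, hn using Nat.le_induction with
  | base =>
    have hp := Real.pi_pos
    have h := Real.log_lt_log (by positivity) Num_base
    rw [Num_log_lhs 3, Num_log_rhs 3] at h
    unfold NumD
    linarith
  | succ n hn ih => exact ih.trans (NumD_step hn)

theorem num_c {n : ℕ} (hn : 3 ≤ n) :
    (((n : ℝ) + 1) ^ (n + 1) * ((n : ℝ) + 2) ^ n) ^ 10 * (Real.pi * ((n : ℝ) + 1)) ^ 5 *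
        10395 ^ (2 * n) * (51 / 50 : ℝ) ^ (20 * n) <
      (2 * (n.factorial : ℝ) ^ 2 * (2 * Real.pi) ^ (2 * n)) ^ 5 * 243 ^ (2 * n) *
        P5 n ^ (2 * n) := by
  have hp := Real.pi_pos
  have hf : (0 : ℝ) < n.factorial := by exact_mod_cast n.factorial_pos
  have h5 : 0 < P5 n := by
    unfold P5
    positivity
  have h := NumD_pos hn
  refine (Real.log_lt_log_iff (by positivity) (by positivity)).1 ?_
  rw [Num_log_lhs n, Num_log_rhs n]
  unfold NumD at h
  linarith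

end Vale.Agent.P254U
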