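import Vale.Agent.Lib.P254U.LP.Mom
import Vale.Agent.Lib.P254U.LP.Beta
import Vale.Agent.Lib.P254U.LP.Num
import Vale.Agent.Lib.P254U.ZP.Main

/-!
P254U/LP/Main: assembly, follow the proof of `rat_lp` (ZP/Main.lean).
`zp_comp` with `c = d^p`, `a = 3^(p/2)/(p+1)` (`moment_uni`) gives
`3^(p/2)/(p+1) * JJ n 0 ≤ d^p * (R^p * JJ n p)`; with `jj_beta`: `3^(p/2) ≤ (d R)^p (10395/P5 n)^(p/10)`, so
`243 * P5 n ≤ 10395 * (d R)^10`.  By `rat_eq_of_R` and `om_lower`, `num_c`: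
`((n+1)^(n+1) (n+2)^n)^10 < ((n! J0)^2 R^(2n))^10`.
-/

open MeasureTheory Set

namespace Vale.Agent.P254U

variable {n : ℕ}

private theorem lpmain_num {A X R π' P N : ℝ} (hA : 0 ≤ A) (hX : 0 < X) (hR : 0 < R)
    (hpi : 0 < π') (hP : 0 < P) (hN : 0 < N)
    (h1 : A ^ 10 * π' ^ 5 * 10395 ^ (2 * n) * (51 / 50 : ℝ) ^ (20 * n) <
      N ^ 5 * 243 ^ (2 * n) * P ^ (2 * n))
    (h2 : N ≤ X ^ 4 * π') (h3 : 243 * P ≤ 10395 * ((51 / 50) ^ 10 * R ^ 10)) :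
    A < X ^ 2 * R ^ (2 * n) := by
  have hpos : 0 < π' ^ 5 * 10395 ^ (2 * n) * (51 / 50 : ℝ) ^ (20 * n) := by positivity
  apply lt_of_pow_lt_pow_left₀ 10 (by positivity)
  have e1 : A ^ 10 * (π' ^ 5 * 10395 ^ (2 * n) * (51 / 50 : ℝ) ^ (20 * n)) <
      (X ^ 2 * R ^ (2 * n)) ^ 10 * (π' ^ 5 * 10395 ^ (2 * n) * (51 / 50 : ℝ) ^ (20 * n)) := by
    calc A ^ 10 * (π' ^ 5 * 10395 ^ (2 * n) * (51 / 50 : ℝ) ^ (20 * n))
        = A ^ 10 * π' ^ 5 * 10395 ^ (2 * n) * (51 / 50 : ℝ) ^ (20 * n) := by ring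
      _ < N ^ 5 * 243 ^ (2 * n) * P ^ (2 * n) := h1
      _ = N ^ 5 * (243 * P) ^ (2 * n) := by rw [mul_pow (243 : ℝ)]; ring
      _ ≤ (X ^ 4 * π') ^ 5 * (10395 * ((51 / 50) ^ 10 * R ^ 10)) ^ (2 * n) := by
          gcongr
      _ = (X ^ 2 * R ^ (2 * n)) ^ 10 * (π' ^ 5 * 10395 ^ (2 * n) * (51 / 50 : ℝ) ^ (20 * n)) := by
          rw [mul_pow (10395 : ℝ), mul_pow ((51 / 50 : ℝ) ^ 10), ← pow_mul (51 / 50 : ℝ) 10 (2 * n),
            ← pow_mul R 10 (2 * n), mul_pow (X ^ 2), ← pow_mul R (2 * n) 10,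
            show 10 * (2 * n) = 20 * n by ring, show 2 * n * 10 = 20 * n by ring, mul_pow (X ^ 4)]
          ring
  exact lt_of_mul_lt_mul_right e1 hpos.le

theorem rat_lp10 (hn : 3 ≤ n) {K : Set (Fin n → ℝ)} (hK : ConvBody n K) (hs : ∀ x ∈ K, -x ∈ K)
    {Ω : Type*} [MeasurableSpace Ω] (μ : Measure Ω) [SFinite μ] {f : Ω → (Fin n → ℝ)}
    (hf : Measurable f) {p : ℝ} (h2 : 2 ≤ p) (h10 : p ≤ 10) {d : ℝ} (hd1 : 1 ≤ d) (hd2 : d ≤ 51 / 50)
    (h1 : ∀ x ∈ K, PhiP μ f p x ≤ 1)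
    (h3 : ∀ x, x ∉ K → 1 ≤ ENNReal.ofReal (d ^ p) * PhiP μ f p x) : Rat K < 1 := by
  have hn1 : 1 ≤ n := by omega
  have hn2 : 2 ≤ n := by omega
  have hnn : (0 : ℝ) ≤ n := Nat.cast_nonneg n
  have hp0 : 0 < p := by linarith
  have hd0 : 0 < d := by linarith
  have ha : (0 : ℝ) < 3 ^ (p / 2) / (p + 1) := by positivity
  obtain ⟨R, hR, hdet, hcmp⟩ := zp_comp hn1 hK μ hf (by linarith : (1 : ℝ) ≤ p)
    (Real.one_le_rpow hd1 hp0.le) h1 h3 ha (fun w => moment_uni hn2 hK hs h2 w)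
  rw [rat_eq_of_R hn1 hK hR hdet]
  have hJ0 : 0 < JJ n 0 := by
    unfold JJ
    have : 0 < Real.Gamma ((0 + 1) / 2) := Real.Gamma_pos_of_pos (by norm_num)
    have : 0 < Real.Gamma (((n : ℝ) + 0) / 2 + 1) := Real.Gamma_pos_of_pos (by positivity)
    positivity
  have hf' : (0 : ℝ) < (n.factorial : ℝ) := by exact_mod_cast Nat.factorial_pos n
  have hpi := Real.pi_pos
  have hjp := jj_beta hn2 h2 h10
  have hP5 : 0 < P5 n := by unfold P5; positivity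
  set J0 := JJ n 0 with hJ0def
  have hstep : 243 * P5 n ≤ 10395 * ((51 / 50) ^ 10 * R ^ 10) := by
    set q := 10395 / P5 n with hq
    have hq0 : 0 < q := by positivity
    have e1 : J0 * 3 ^ (p / 2) ≤ J0 * (d ^ p * R ^ p * q ^ (p / 10)) := by
      have e0 : 3 ^ (p / 2) * J0 = (p + 1) * (3 ^ (p / 2) / (p + 1) * J0) := by
        field_simp
      calc J0 * 3 ^ (p / 2) = (p + 1) * (3 ^ (p / 2) / (p + 1) * J0) := by rw [← e0]; ring
        _ ≤ (p + 1) * (d ^ p * (R ^ p * JJ n p)) := mul_le_mul_of_nonneg_left hcmp (by linarith)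
        _ = d ^ p * R ^ p * ((p + 1) * JJ n p) := by ring
        _ ≤ d ^ p * R ^ p * (q ^ (p / 10) * J0) := mul_le_mul_of_nonneg_left hjp (by positivity)
        _ = J0 * (d ^ p * R ^ p * q ^ (p / 10)) := by ring
    have e2 : (3 : ℝ) ^ (p / 2) ≤ d ^ p * R ^ p * q ^ (p / 10) := le_of_mul_le_mul_left e1 hJ0
    have e3 : d ^ p * R ^ p * q ^ (p / 10) = ((d * R) ^ 10 * q) ^ (p / 10) := by
      rw [Real.mul_rpow (by positivity) hq0.le, ← Real.rpow_natCast (d * R) 10,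
        ← Real.rpow_mul (by positivity), ← Real.mul_rpow hd0.le hR.le]
      congr 2
      push_cast
      ring
    have e4 : (3 : ℝ) ^ (p / 2) = (243 : ℝ) ^ (p / 10) := by
      rw [show (243 : ℝ) = 3 ^ (5 : ℝ) by norm_num, ← Real.rpow_mul (by norm_num)]
      congr 1
      ring
    rw [e3, e4] at e2
    have e5 : 243 ≤ (d * R) ^ 10 * q := by
      by_contra hc
      push Not at hc
      have := Real.rpow_lt_rpow (by positivity) hc (show 0 < p / 10 by positivity)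
      linarith
    rw [hq, mul_div_assoc', le_div_iff₀ hP5] at e5
    have e6 : (d * R) ^ 10 ≤ (51 / 50) ^ 10 * R ^ 10 := by
      rw [← mul_pow]
      gcongr
    linarith
  have hom := om_lower hn1
  rw [← hJ0def] at hom
  have hnb := num_c hn
  set X := (n.factorial : ℝ) * J0 with hX
  have hX0 : 0 < X := by positivity
  rw [div_lt_one (by positivity)]
  exact lpmain_num (by positivity) hX0 hR (show 0 < Real.pi * ((n : ℝ) + 1) by positivity) hP5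
    (show 0 < 2 * (n.factorial : ℝ) ^ 2 * (2 * Real.pi) ^ (2 * n) by positivity) hnb hom hstep

end Vale.Agent.P254U
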