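import Mathlib

/-!
P254U/LP/Uni: moments of a nonincreasing density.
Let `I0, I2, Ip` be the integrals, `u = 3 I2 / I0`, `q = p / 2`.  The function
`φ t = t^p - u^q/(p+1) (1 - q + 3 q t^2 / u)` has nonnegative integrals over all `[0, r]` (Bernoulli), so
`∫ φ g ≥ 0` for every nonincreasing nonnegative `g` (Abel summation); this is the claim.
-/

open MeasureTheory Set

namespace Vale.Agent.P254U

theorem uni_abel_step {g φ : ℝ → ℝ} {a b B : ℝ} (ha : 0 ≤ a) (hab : a ≤ b)
    (hg : AntitoneOn g (Ici (0 : ℝ))) (hφ : Continuous φ) (hB : ∀ t ∈ Icc a b, |φ t| ≤ B) :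
    g a * (∫ t in a..b, φ t) - B * (b - a) * (g a - g b) ≤ ∫ t in a..b, φ t * g t := by
  have hgi : IntervalIntegrable g volume a b := by
    apply AntitoneOn.intervalIntegrable
    apply hg.mono
    rw [uIcc_of_le hab]
    intro x hx
    exact ha.trans hx.1
  have hgm : IntervalIntegrable (fun t => φ t * g t) volume a b :=
    hgi.continuousOn_mul hφ.continuousOn
  have hφi : IntervalIntegrable φ volume a b := hφ.intervalIntegrable _ _
  have h0 : IntervalIntegrable (fun t => g a * φ t - φ t * g t) volume a b :=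
    (hφi.const_mul (g a)).sub hgm
  have h1 : ∫ t in a..b, (g a * φ t - φ t * g t) ≤ ∫ _ in a..b, B * (g a - g b) := by
    apply intervalIntegral.integral_mono_on hab h0 intervalIntegrable_const
    intro t ht
    have h2 := hB t ht
    have h3 : g t ≤ g a := hg ha (ha.trans ht.1) ht.1
    have h4 : g b ≤ g t := hg (ha.trans ht.1) (ha.trans hab) ht.2
    have h5 : φ t ≤ B := (le_abs_self _).trans h2
    have h6 : 0 ≤ B := (abs_nonneg _).trans h2
    calc g a * φ t - φ t * g t = φ t * (g a - g t) := by ring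
      _ ≤ B * (g a - g t) := mul_le_mul_of_nonneg_right h5 (by linarith)
      _ ≤ B * (g a - g b) := mul_le_mul_of_nonneg_left (by linarith) h6
  rw [intervalIntegral.integral_sub (hφi.const_mul (g a)) hgm,
    intervalIntegral.integral_const_mul, intervalIntegral.integral_const, smul_eq_mul] at h1
  nlinarith [h1]

theorem uni_abel {g φ : ℝ → ℝ} {T : ℝ} (hT : 0 < T)
    (hg : AntitoneOn g (Ici (0 : ℝ))) (h0 : ∀ t, 0 ≤ t → 0 ≤ g t) (hφ : Continuous φ)
    (hΦ : ∀ r, 0 ≤ r → 0 ≤ ∫ t in (0 : ℝ)..r, φ t) :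
    0 ≤ ∫ t in (0 : ℝ)..T, φ t * g t := by
  obtain ⟨B, hB⟩ := (isCompact_Icc (a := (0 : ℝ)) (b := T)).exists_bound_of_continuousOn
    hφ.continuousOn
  have hB' : ∀ t ∈ Icc (0 : ℝ) T, |φ t| ≤ B := fun t ht => hB t ht
  have hB0 : 0 ≤ B := (abs_nonneg _).trans (hB' 0 ⟨le_rfl, hT.le⟩)
  have key : ∀ N : ℕ, 0 < N → - (B * T * g 0) / N ≤ ∫ t in (0 : ℝ)..T, φ t * g t := by
    intro N hN
    have hN' : (0 : ℝ) < N := by exact_mod_cast hN
    have hh : 0 < T / N := div_pos hT hN'
    have hind : ∀ n : ℕ, n ≤ N → g (n * (T / N)) * (∫ t in (0 : ℝ)..(n * (T / N)), φ t) -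
        B * (T / N) * (g 0 - g (n * (T / N))) ≤ ∫ t in (0 : ℝ)..(n * (T / N)), φ t * g t := by
      intro n
      induction n with
      | zero => intro _; simp
      | succ n ih =>
        intro hn
        have ih' := ih (by omega)
        have e0 : (0 : ℝ) ≤ n * (T / N) := mul_nonneg (Nat.cast_nonneg _) hh.le
        have e1 : (n : ℝ) * (T / N) ≤ ((n + 1 : ℕ) : ℝ) * (T / N) := by
          apply mul_le_mul_of_nonneg_right _ hh.le
          push_cast
          linarith
        have e2 : ((n + 1 : ℕ) : ℝ) * (T / N) ≤ T := by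
          have : ((n + 1 : ℕ) : ℝ) ≤ N := by exact_mod_cast hn
          calc ((n + 1 : ℕ) : ℝ) * (T / N) ≤ N * (T / N) := mul_le_mul_of_nonneg_right this hh.le
            _ = T := by field_simp
        have st := uni_abel_step (B := B) e0 e1 hg hφ
          (fun t ht => hB' t ⟨e0.trans ht.1, ht.2.trans e2⟩)
        have e3 : ((n + 1 : ℕ) : ℝ) * (T / N) - n * (T / N) = T / N := by
          push_cast
          ring
        rw [e3] at st
        have hgi : ∀ a b : ℝ, 0 ≤ a → 0 ≤ b → IntervalIntegrable (fun t => φ t * g t) volume a b := by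
          intro a b ha hb
          have hgi : IntervalIntegrable g volume a b := by
            apply AntitoneOn.intervalIntegrable
            apply hg.mono
            intro x hx
            exact (le_min ha hb).trans hx.1
          exact hgi.continuousOn_mul hφ.continuousOn
        have a1 := intervalIntegral.integral_add_adjacent_intervals
          (hgi 0 (n * (T / N)) le_rfl e0)
          (hgi (n * (T / N)) (((n + 1 : ℕ) : ℝ) * (T / N)) e0 (e0.trans e1))
        have a2 := intervalIntegral.integral_add_adjacent_intervals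
          (hφ.intervalIntegrable (μ := volume) 0 (n * (T / N)))
          (hφ.intervalIntegrable (μ := volume) (n * (T / N)) (((n + 1 : ℕ) : ℝ) * (T / N)))
        rw [← a1]
        have p1 : 0 ≤ ∫ t in (0 : ℝ)..(((n + 1 : ℕ) : ℝ) * (T / N)), φ t := hΦ _ (e0.trans e1)
        have p2 : g (((n + 1 : ℕ) : ℝ) * (T / N)) ≤ g (n * (T / N)) := hg e0 (e0.trans e1) e1
        have p3 := mul_le_mul_of_nonneg_right p2 p1
        have p4 : g (n * (T / N)) * (∫ t in (0 : ℝ)..(((n + 1 : ℕ) : ℝ) * (T / N)), φ t) =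
            g (n * (T / N)) * (∫ t in (0 : ℝ)..(n * (T / N)), φ t) + g (n * (T / N)) *
              ∫ t in (n * (T / N))..(((n + 1 : ℕ) : ℝ) * (T / N)), φ t := by
          rw [← a2]
          ring
        nlinarith [ih', st, p3, p4]
    have h1 := hind N le_rfl
    have e4 : (N : ℝ) * (T / N) = T := by field_simp
    rw [e4] at h1
    have h2 : 0 ≤ g T * (∫ t in (0 : ℝ)..T, φ t) := mul_nonneg (h0 T hT.le) (hΦ T hT.le)
    have h3 : 0 ≤ B * (T / N) * g T := mul_nonneg (mul_nonneg hB0 hh.le) (h0 T hT.le)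
    have h4 : -(B * T * g 0) / N = - (B * (T / N) * g 0) := by ring
    rw [h4]
    nlinarith [h1, h2, h3]
  by_contra hneg
  push Not at hneg
  set J := ∫ t in (0 : ℝ)..T, φ t * g t with hJ
  obtain ⟨N, hN⟩ := exists_nat_gt (B * T * g 0 / (-J))
  have hJ' : 0 < -J := by linarith
  have hC : 0 ≤ B * T * g 0 := mul_nonneg (mul_nonneg hB0 hT.le) (h0 0 le_rfl)
  have hN0 : (0 : ℝ) < N := lt_of_le_of_lt (div_nonneg hC hJ'.le) hN
  have h1 := key N (by exact_mod_cast hN0)
  rw [div_lt_iff₀ hJ'] at hN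
  rw [div_le_iff₀ hN0] at h1
  nlinarith [h1, hN]

theorem uni_moment {g : ℝ → ℝ} {T : ℝ} (hT : 0 < T) (hg : AntitoneOn g (Ici (0 : ℝ)))
    (h0 : ∀ t, 0 ≤ t → 0 ≤ g t) (hpos : 0 < ∫ t in (0 : ℝ)..T, g t) {p : ℝ} (hp : 2 ≤ p) :
    (3 * ((∫ t in (0 : ℝ)..T, t ^ (2 : ℝ) * g t) / ∫ t in (0 : ℝ)..T, g t)) ^ (p / 2) / (p + 1) *
      (∫ t in (0 : ℝ)..T, g t) ≤ ∫ t in (0 : ℝ)..T, t ^ p * g t := by
  set I0 := ∫ t in (0 : ℝ)..T, g t with hI0
  set I2 := ∫ t in (0 : ℝ)..T, t ^ (2 : ℝ) * g t with hI2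
  set Ip := ∫ t in (0 : ℝ)..T, t ^ p * g t with hIp
  have hnn : ∀ s : ℝ, 0 ≤ ∫ t in (0 : ℝ)..T, t ^ s * g t := by
    intro s
    apply intervalIntegral.integral_nonneg hT.le
    intro t ht
    exact mul_nonneg (Real.rpow_nonneg ht.1 _) (h0 t ht.1)
  have hI2n : 0 ≤ I2 := hnn 2
  have hIpn : 0 ≤ Ip := hnn p
  set u := 3 * (I2 / I0) with hu
  have hun : 0 ≤ u := mul_nonneg (by norm_num) (div_nonneg hI2n hpos.le)
  have huI : u * I0 = 3 * I2 := by
    rw [hu]
    field_simp
  rcases hun.eq_or_lt with hu0 | hu0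
  · rw [← hu0, Real.zero_rpow (by linarith), zero_div, zero_mul]
    exact hIpn
  have hp1 : 0 < p + 1 := by linarith
  set c := u ^ (p / 2) / (p + 1) with hc
  have hc0 : 0 < c := div_pos (Real.rpow_pos_of_pos hu0 _) hp1
  have hg1 : IntervalIntegrable g volume 0 T := by
    apply AntitoneOn.intervalIntegrable
    apply hg.mono
    rw [uIcc_of_le hT.le]
    intro x hx
    exact hx.1
  have hcp : Continuous fun t : ℝ => t ^ p := Real.continuous_rpow_const (by linarith)
  have hc2 : Continuous fun t : ℝ => t ^ (2 : ℝ) := Real.continuous_rpow_const (by norm_num)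
  have hφc : Continuous fun t : ℝ => t ^ p - c * (1 - p / 2 + 3 * (p / 2) / u * t ^ (2 : ℝ)) :=
    hcp.sub (continuous_const.mul (continuous_const.add (continuous_const.mul hc2)))
  have main := uni_abel hT hg h0 hφc (fun r hr => by
    have i1 : IntervalIntegrable (fun t : ℝ => t ^ p) volume 0 r := hcp.intervalIntegrable _ _
    have i2 : IntervalIntegrable (fun t : ℝ => 3 * (p / 2) / u * t ^ (2 : ℝ)) volume 0 r :=
      (continuous_const.mul hc2).intervalIntegrable _ _
    have i3 : IntervalIntegrable (fun _ : ℝ => 1 - p / 2) volume 0 r := intervalIntegrable_const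
    have i4 : IntervalIntegrable
        (fun t : ℝ => c * (1 - p / 2 + 3 * (p / 2) / u * t ^ (2 : ℝ))) volume 0 r :=
      (i3.add i2).const_mul c
    rw [intervalIntegral.integral_sub i1 i4,
      intervalIntegral.integral_const_mul, intervalIntegral.integral_add i3 i2,
      intervalIntegral.integral_const_mul, integral_rpow (Or.inl (by linarith)),
      integral_rpow (Or.inl (by norm_num)), intervalIntegral.integral_const,
      Real.zero_rpow (by linarith), Real.zero_rpow (by norm_num), smul_eq_mul, sub_zero, sub_zero,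
      sub_zero]
    rcases hr.eq_or_lt with hr0 | hr0
    · rw [← hr0, Real.zero_rpow (by linarith), Real.zero_rpow (by norm_num)]
      simp
    have k1 : r ^ (p + 1) = r ^ p * r := Real.rpow_add_one hr0.ne' p
    have k2 : r ^ ((2 : ℝ) + 1) = r ^ 2 * r := by
      rw [Real.rpow_add_one hr0.ne', Real.rpow_two]
    have k3 : r ^ p = u ^ (p / 2) * (1 + (r ^ 2 / u - 1)) ^ (p / 2) := by
      rw [add_sub_cancel, ← Real.mul_rpow hu0.le (by positivity)]
      have : u * (r ^ 2 / u) = r ^ 2 := by field_simp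
      rw [this, ← Real.rpow_natCast r 2, ← Real.rpow_mul hr]
      congr 1
      push_cast
      ring
    have k4 : 1 + p / 2 * (r ^ 2 / u - 1) ≤ (1 + (r ^ 2 / u - 1)) ^ (p / 2) := by
      apply one_add_mul_self_le_rpow_one_add
      · have : 0 ≤ r ^ 2 / u := by positivity
        linarith
      · linarith
    have k5 : u ^ (p / 2) * (1 + p / 2 * (r ^ 2 / u - 1)) ≤ r ^ p := by
      rw [k3]
      exact mul_le_mul_of_nonneg_left k4 (Real.rpow_nonneg hu0.le _)
    have k6 : u ^ (p / 2) = c * (p + 1) := by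
      rw [hc]
      field_simp
    rw [k6] at k5
    rw [k1, k2]
    have k7 : c * (1 + p / 2 * (r ^ 2 / u - 1)) ≤ r ^ p / (p + 1) := by
      rw [le_div_iff₀ hp1]
      nlinarith [k5]
    have k8 := mul_le_mul_of_nonneg_right k7 hr
    have k9 : r ^ p * r / (p + 1) = r ^ p / (p + 1) * r := by ring
    have k10 : c * (r * (1 - p / 2) + 3 * (p / 2) / u * (r ^ 2 * r / (2 + 1))) =
        c * (1 + p / 2 * (r ^ 2 / u - 1)) * r := by
      field_simp
      ring
    rw [k9, k10]
    linarith)
  have hgp : IntervalIntegrable (fun t : ℝ => t ^ p * g t) volume 0 T :=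
    hg1.continuousOn_mul hcp.continuousOn
  have hg2 : IntervalIntegrable (fun t : ℝ => t ^ (2 : ℝ) * g t) volume 0 T :=
    hg1.continuousOn_mul hc2.continuousOn
  have e1 : (fun t : ℝ => (t ^ p - c * (1 - p / 2 + 3 * (p / 2) / u * t ^ (2 : ℝ))) * g t) =
      fun t : ℝ => t ^ p * g t - (c * (1 - p / 2) * g t +
        c * (3 * (p / 2) / u) * (t ^ (2 : ℝ) * g t)) := by
    funext t
    ring
  rw [e1, intervalIntegral.integral_sub hgp ((hg1.const_mul _).add (hg2.const_mul _)),
    intervalIntegral.integral_add (hg1.const_mul _) (hg2.const_mul _),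
    intervalIntegral.integral_const_mul, intervalIntegral.integral_const_mul, ← hI0, ← hI2,
    ← hIp] at main
  have e2 : c * (3 * (p / 2) / u) * I2 = c * (p / 2) * I0 := by
    have : I2 = u * I0 / 3 := by linarith
    rw [this]
    field_simp
  rw [e2] at main
  nlinarith [main]

end Vale.Agent.P254U
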