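import Vale.Agent.Lib.P254U.LP.SecA
import Vale.Agent.Lib.P254U.LP.SecB
import Vale.Agent.Lib.P254U.LP.Uni
import Vale.Agent.Lib.P254U.SY.Rot
import Vale.Agent.Lib.P254U.SY.Lin

/-!
P254U/LP/Mom: the moment inequality for linear functionals on a symmetric convex body.
`w = 0`: the left side is `0` (`(0 : ℝ) ^ (p/2) = 0`).  Otherwise write `n = k + 1`, `w = λ u` with
`∑ u_i^2 = 1`, `λ > 0`; `O` from `exists_orth` (SY/Rot.lean), `L = O K` (`lin_image`, SY/Lin.lean, `det O ≠ 0`);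
`⟨w, x⟩ = λ (O x)_0` and `|det O| = 1`, so `∫_K |⟨w,x⟩|^p = λ^p ∫_L |x_0|^p` and `|L| = |K|`.
Then `sec_pow` for the exponents `0`, `2`, `p`, `sec_anti` and `uni_moment`; `covM_form_sym` (ZP/Bath.lean).
-/

open MeasureTheory Set

namespace Vale.Agent.P254U

variable {n : ℕ}

theorem moment_uni (hn : 2 ≤ n) {K : Set (Fin n → ℝ)} (hK : ConvBody n K)
    (hs : ∀ x ∈ K, -x ∈ K) {p : ℝ} (hp : 2 ≤ p) (w : Fin n → ℝ) :
    3 ^ (p / 2) / (p + 1) * (w ⬝ᵥ (covM K).mulVec w) ^ (p / 2) * (volume K).toReal ≤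
      ∫ x in K, |∑ i, w i * x i| ^ p := by
  classical
  by_cases hw : w = 0
  · subst hw
    have h1 : (0 : Fin n → ℝ) ⬝ᵥ (covM K).mulVec 0 = 0 := by simp
    rw [h1, Real.zero_rpow (by linarith), mul_zero, zero_mul]
    exact integral_nonneg fun x => Real.rpow_nonneg (abs_nonneg _) _
  obtain ⟨k, rfl⟩ : ∃ k, n = k + 1 := ⟨n - 1, by omega⟩
  obtain ⟨lam, hlam⟩ : ∃ lam : ℝ, lam = Real.sqrt (∑ i, w i ^ 2) := ⟨_, rfl⟩
  have hS : 0 < ∑ i, w i ^ 2 := by
    obtain ⟨i, hi⟩ := Function.ne_iff.1 hw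
    refine Finset.sum_pos' (fun i _ => sq_nonneg _) ⟨i, Finset.mem_univ i, ?_⟩
    have hi' : w i ≠ 0 := hi
    positivity
  have hl0 : 0 < lam := by
    rw [hlam]
    exact Real.sqrt_pos.2 hS
  have hl2 : lam ^ 2 = ∑ i, w i ^ 2 := by
    rw [hlam]
    exact Real.sq_sqrt hS.le
  have hu : ∑ i, (w i / lam) ^ 2 = 1 := by
    simp only [div_pow]
    rw [← Finset.sum_div, ← hl2, div_self (by positivity)]
  obtain ⟨O, hO, hO0⟩ := exists_orth hu
  have hdet : O.det ^ 2 = 1 := by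
    have := congrArg Matrix.det hO
    rw [Matrix.det_mul, Matrix.det_transpose, Matrix.det_one] at this
    rw [sq]
    exact this
  have habs : |O.det| = 1 := by
    have h1 : |O.det| ^ 2 = 1 := by rw [sq_abs, hdet]
    nlinarith [abs_nonneg O.det]
  have hd0 : O.det ≠ 0 := by
    intro h
    rw [h] at hdet
    norm_num at hdet
  obtain ⟨hL, -, -⟩ := lin_image (by omega) hK O hd0
  obtain ⟨L, hLdef⟩ : ∃ L : Set (Fin (k + 1) → ℝ), L = (fun x => O.mulVec x) '' K := ⟨_, rfl⟩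
  rw [← hLdef] at hL
  have hinj : Function.Injective fun x : Fin (k + 1) → ℝ => O.mulVec x :=
    Matrix.mulVec_injective_of_isUnit
      ((Matrix.isUnit_iff_isUnit_det O).2 (isUnit_iff_ne_zero.2 hd0))
  have hsL : ∀ x ∈ L, -x ∈ L := by
    intro x hx
    rw [hLdef] at hx ⊢
    obtain ⟨y, hy, rfl⟩ := hx
    exact ⟨-y, hs y hy, by simp [Matrix.mulVec_neg]⟩
  have hcv : ∀ f : (Fin (k + 1) → ℝ) → ℝ,
      ∫ y in L, f y = ∫ x in K, f (O.mulVec x) := by
    intro f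
    have h1 := integral_image_eq_integral_abs_det_fderiv_smul
      (volume : Measure (Fin (k + 1) → ℝ)) hK.compact.measurableSet (f := fun x => O.mulVec x)
      (f' := fun _ => LinearMap.toContinuousLinearMap (Matrix.toLin' O)) (fun x _ => by
        have h2 : (fun x : Fin (k + 1) → ℝ => O.mulVec x) =
            fun x => LinearMap.toContinuousLinearMap (Matrix.toLin' O) x := by
          funext x
          simp [Matrix.toLin'_apply]
        rw [h2]
        exact (LinearMap.toContinuousLinearMap (Matrix.toLin' O)).hasFDerivAt.hasFDerivWithinAt)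
      hinj.injOn f
    rw [hLdef, h1]
    simp only [LinearMap.det_toContinuousLinearMap, LinearMap.det_toLin', smul_eq_mul, habs,
      one_mul]
  have hvol : (volume L).toReal = (volume K).toReal := by
    have h := hcv (fun _ => 1)
    simpa [measureReal_def] using h
  have hlin : ∀ x : Fin (k + 1) → ℝ, ∑ i, w i * x i = lam * O.mulVec x 0 := by
    intro x
    rw [hO0, Finset.mul_sum]
    refine Finset.sum_congr rfl fun i _ => ?_
    field_simp
  -- bound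
  obtain ⟨C, hC⟩ := hL.compact.isBounded.exists_norm_le
  have hT0 : 0 < |C| + 1 := by positivity
  have hT1 : ∀ x ∈ L, x 0 ≤ |C| + 1 := by
    intro x hx
    have h1 := (norm_le_pi_norm x 0).trans (hC x hx)
    rw [Real.norm_eq_abs] at h1
    linarith [le_abs_self (x 0), le_abs_self C]
  obtain ⟨T, hT⟩ : ∃ T : ℝ, T = |C| + 1 := ⟨_, rfl⟩
  rw [← hT] at hT0 hT1
  obtain ⟨-, m0⟩ := sec_pow hL hsL hT0 hT1 (p := 0) le_rfl
  obtain ⟨-, m2⟩ := sec_pow hL hsL hT0 hT1 (p := 2) (by norm_num)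
  obtain ⟨-, mp⟩ := sec_pow hL hsL hT0 hT1 (p := p) (by linarith)
  have e0 : ∫ x in L, |x 0| ^ (0 : ℝ) = (volume L).toReal := by
    simp [measureReal_def]
  have e0' : (∫ t in (0 : ℝ)..T, t ^ (0 : ℝ) * secV L t) = ∫ t in (0 : ℝ)..T, secV L t := by
    simp
  rw [e0, e0'] at m0
  have hvp : 0 < (volume L).toReal := by
    refine ENNReal.toReal_pos ?_ hL.compact.measure_lt_top.ne
    exact (Measure.measure_pos_of_nonempty_interior _ hL.interior_nonempty).ne'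
  have hI0 : 0 < ∫ t in (0 : ℝ)..T, secV L t := by linarith
  have key := uni_moment hT0 (sec_anti (by omega) hL hsL) (fun t _ => ENNReal.toReal_nonneg) hI0 hp
  -- assemble
  have hc : w ⬝ᵥ (covM K).mulVec w = lam ^ 2 * ((∫ t in (0 : ℝ)..T, t ^ (2 : ℝ) * secV L t) /
      ∫ t in (0 : ℝ)..T, secV L t) := by
    rw [covM_form_sym hK hs]
    have h1 : ∫ x in K, (∑ i, w i * x i) ^ 2 = lam ^ 2 * ∫ x in L, |x 0| ^ (2 : ℝ) := by
      rw [hcv fun x => |x 0| ^ (2 : ℝ), ← integral_const_mul]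
      refine integral_congr_ae (Filter.Eventually.of_forall fun x => ?_)
      beta_reduce
      rw [hlin, Real.rpow_two, sq_abs, mul_pow]
    rw [h1, m2, ← hvol, m0]
    field_simp
  have hM : ∫ x in K, |∑ i, w i * x i| ^ p = lam ^ p * (2 * ∫ t in (0 : ℝ)..T, t ^ p * secV L t) := by
    rw [← mp, hcv fun x => |x 0| ^ p, ← integral_const_mul]
    refine integral_congr_ae (Filter.Eventually.of_forall fun x => ?_)
    beta_reduce
    rw [hlin, abs_mul, abs_of_pos hl0, Real.mul_rpow hl0.le (abs_nonneg _)]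
  have hI2 : 0 ≤ ∫ t in (0 : ℝ)..T, t ^ (2 : ℝ) * secV L t := by
    refine intervalIntegral.integral_nonneg hT0.le fun t ht => ?_
    exact mul_nonneg (Real.rpow_nonneg ht.1 _) ENNReal.toReal_nonneg
  obtain ⟨I0, hI0d⟩ : ∃ I : ℝ, I = ∫ t in (0 : ℝ)..T, secV L t := ⟨_, rfl⟩
  obtain ⟨I2, hI2d⟩ : ∃ I : ℝ, I = ∫ t in (0 : ℝ)..T, t ^ (2 : ℝ) * secV L t := ⟨_, rfl⟩
  obtain ⟨Ip, hIpd⟩ : ∃ I : ℝ, I = ∫ t in (0 : ℝ)..T, t ^ p * secV L t := ⟨_, rfl⟩
  rw [hM, hc, ← hvol, m0]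
  rw [← hI0d, ← hI2d, ← hIpd] at key ⊢
  rw [← hI0d] at hI0
  rw [← hI2d] at hI2
  have hq : 0 ≤ I2 / I0 := div_nonneg hI2 hI0.le
  rw [Real.mul_rpow (by norm_num) hq] at key
  have hlp : (lam ^ 2) ^ (p / 2) = lam ^ p := by
    rw [← Real.rpow_natCast, ← Real.rpow_mul hl0.le]
    congr 1
    push_cast
    ring
  rw [Real.mul_rpow (by positivity) hq, hlp]
  have h3 : 0 ≤ lam ^ p * 2 := by positivity
  calc 3 ^ (p / 2) / (p + 1) * (lam ^ p * (I2 / I0) ^ (p / 2)) * (2 * I0) =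
        lam ^ p * 2 * (3 ^ (p / 2) * (I2 / I0) ^ (p / 2) / (p + 1) * I0) := by ring
    _ ≤ lam ^ p * 2 * Ip := mul_le_mul_of_nonneg_left key h3
    _ = lam ^ p * (2 * Ip) := by ring

end Vale.Agent.P254U
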