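import Vale.Agent.Lib.P254U.LP.Defs

/-!
P254U/LP/SecA: sections of a symmetric convex body are largest in the middle.
The section at `-t` is minus the section at `t`.  For `0 ≤ s ≤ t` write `s = (1-l) t + l (-t)` with
`l = (t - s) / (2 t)` (`t > 0`); the section at `s` contains `(1-l) • A + l • (-A)` with `A` the section at `t`
(convexity of `K`), and `brunn_minkowski` (ZP/BM.lean) gives `|A|^(1/n) ≤ |section at s|^(1/n)` if `|A| > 0`
(trivial if `|A| = 0` or `s = t`).  The sections are compact (closed: preimage of `K` under the continuous map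
`y ↦ Fin.cons t y`; bounded), so measurable of finite measure.
-/

open MeasureTheory Set

namespace Vale.Agent.P254U

variable {n : ℕ}

/-- the section -/
private def SecA_sec {n : ℕ} (K : Set (Fin (n + 1) → ℝ)) (t : ℝ) : Set (Fin n → ℝ) :=
  {y : Fin n → ℝ | (Fin.cons t y : Fin (n + 1) → ℝ) ∈ K}

private theorem SecA_secV (K : Set (Fin (n + 1) → ℝ)) (t : ℝ) :
    secV K t = (volume (SecA_sec K t)).toReal := rfl

private theorem SecA_cont (t : ℝ) :
    Continuous (fun y : Fin n → ℝ => (Fin.cons t y : Fin (n + 1) → ℝ)) := by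
  refine continuous_pi fun i => ?_
  refine Fin.cases ?_ (fun j => ?_) i
  · simp only [Fin.cons_zero]
    exact continuous_const
  · simp only [Fin.cons_succ]
    exact continuous_apply j

private theorem SecA_compact {K : Set (Fin (n + 1) → ℝ)} (hK : IsCompact K) (t : ℝ) :
    IsCompact (SecA_sec K t) := by
  have h1 : Continuous (fun x : Fin (n + 1) → ℝ => fun j : Fin n => x j.succ) := by fun_prop
  refine (hK.image h1).of_isClosed_subset (hK.isClosed.preimage (SecA_cont t)) ?_
  intro y hy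
  refine ⟨Fin.cons t y, hy, ?_⟩
  funext j
  exact Fin.cons_succ (α := fun _ => ℝ) t y j

private theorem SecA_fin {K : Set (Fin (n + 1) → ℝ)} (hK : IsCompact K) (t : ℝ) :
    volume (SecA_sec K t) ≠ ⊤ := (SecA_compact hK t).measure_lt_top.ne

private theorem SecA_conv {K : Set (Fin (n + 1) → ℝ)} (hK : Convex ℝ K) {s t l : ℝ}
    (h0 : 0 ≤ l) (h1 : l ≤ 1) : ∀ x ∈ SecA_sec K s, ∀ y ∈ SecA_sec K t,
      (1 - l) • x + l • y ∈ SecA_sec K ((1 - l) * s + l * t) := by
  intro x hx y hy
  have h2 := hK hx hy (show 0 ≤ 1 - l by linarith) h0 (by ring)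
  have h3 : (Fin.cons ((1 - l) * s + l * t) ((1 - l) • x + l • y) : Fin (n + 1) → ℝ) =
      (1 - l) • (Fin.cons s x : Fin (n + 1) → ℝ) + l • (Fin.cons t y : Fin (n + 1) → ℝ) := by
    funext i
    refine Fin.cases ?_ (fun j => ?_) i
    · simp only [Fin.cons_zero, Pi.add_apply, Pi.smul_apply, smul_eq_mul]
    · simp only [Fin.cons_succ, Pi.add_apply, Pi.smul_apply, smul_eq_mul]
  show (Fin.cons ((1 - l) * s + l * t) ((1 - l) • x + l • y) : Fin (n + 1) → ℝ) ∈ K
  rw [h3]
  exact h2

private theorem SecA_nonneg (K : Set (Fin (n + 1) → ℝ)) (t : ℝ) : 0 ≤ secV K t :=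
  ENNReal.toReal_nonneg

private theorem SecA_neg {K : Set (Fin (n + 1) → ℝ)} (hs : ∀ x ∈ K, -x ∈ K) (t : ℝ) :
    secV K (-t) = secV K t := by
  have h3 : SecA_sec K (-t) = Neg.neg ⁻¹' SecA_sec K t := by
    ext y
    have e : (Fin.cons t (-y) : Fin (n + 1) → ℝ) = -(Fin.cons (-t) y : Fin (n + 1) → ℝ) := by
      funext i
      refine Fin.cases ?_ (fun j => ?_) i
      · simp only [Fin.cons_zero, Pi.neg_apply, neg_neg]
      · simp only [Fin.cons_succ, Pi.neg_apply]
    constructor
    · intro h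
      show (Fin.cons t (-y) : Fin (n + 1) → ℝ) ∈ K
      rw [e]
      exact hs _ h
    · intro h
      have h' : (Fin.cons t (-y) : Fin (n + 1) → ℝ) ∈ K := h
      rw [e] at h'
      have h4 := hs _ h'
      rw [neg_neg] at h4
      exact h4
  rw [SecA_secV, SecA_secV, h3, Measure.measure_preimage_neg]

theorem sec_anti (hn : 1 ≤ n) {K : Set (Fin (n + 1) → ℝ)} (hK : ConvBody (n + 1) K)
    (hs : ∀ x ∈ K, -x ∈ K) : AntitoneOn (secV K) (Ici (0 : ℝ)) := by
  intro s hs0 t ht0 hst
  have hs1 : 0 ≤ s := hs0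
  by_cases h1 : 0 < secV K t
  · rcases hst.eq_or_lt with heq | hlt
    · rw [heq]
    have ht1 : 0 < t := lt_of_le_of_lt hs1 hlt
    have hl0 : 0 < (t - s) / (2 * t) := div_pos (by linarith) (by linarith)
    have hl1 : (t - s) / (2 * t) < 1 := by
      rw [div_lt_one (by linarith)]
      linarith
    have h2 := SecA_neg hs t
    have h3 := brunn_minkowski hn
      (SecA_compact hK.compact t).measurableSet (SecA_compact hK.compact (-t)).measurableSet
      (SecA_compact hK.compact ((1 - (t - s) / (2 * t)) * t + (t - s) / (2 * t) *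
        -t)).measurableSet (SecA_fin hK.compact _)
      h1 (by rw [← SecA_secV, h2]; exact h1) hl0 hl1 (SecA_conv hK.convex hl0.le hl1.le)
    have e : (1 - (t - s) / (2 * t)) * t + (t - s) / (2 * t) * -t = s := by
      field_simp
      ring
    rw [e, ← SecA_secV, ← SecA_secV, ← SecA_secV, h2] at h3
    have h4 : secV K t ^ (1 / (n : ℝ)) ≤ secV K s ^ (1 / (n : ℝ)) := by linarith
    have hn0 : 0 < 1 / (n : ℝ) := by
      have : (1 : ℝ) ≤ n := by exact_mod_cast hn
      positivity
    exact (Real.rpow_le_rpow_iff (SecA_nonneg K t) (SecA_nonneg K s) hn0).1 h4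
  · exact (not_lt.1 h1).trans (SecA_nonneg K s)

end Vale.Agent.P254U
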